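import Mathlib

/-!
# P262, M2: the weighted number of class lists

A list `u` of classes (head = latest class) below a parent of class `c0`.  A step from class `a` to
class `b` with `a ≤ b + 1` is free, a deeper down step costs `exp (-(c1 * 4 ^ a))`.  The sum over
all lists of length `k` of the product of the costs, times a weight of the maximal class, is
bounded by `K ^ k * 2 ^ (-c0) * Σ_M 2 ^ M w M` (Schur test with `h c = 2 ^ (-c)`).
-/

open scoped ENNReal BigOperators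
open Finset

namespace Vale.Agent.P262.H81

/-- lists of length `k` with entries `≤ cm` -/
def lsts (cm : ℕ) : ℕ → Finset (List ℕ)
  | 0 => {[]}
  | n + 1 => (Finset.range (cm + 1) ×ˢ lsts cm n).image fun z => z.1 :: z.2

lemma mem_lsts {cm n : ℕ} {q : List ℕ} :
    q ∈ lsts cm n ↔ q.length = n ∧ ∀ c ∈ q, c ≤ cm := by
  induction n generalizing q with
  | zero =>
    rw [lsts, Finset.mem_singleton]
    constructor
    · rintro rfl; simp
    · rintro ⟨h, -⟩
      exact List.length_eq_zero_iff.1 h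
  | succ n ih =>
    rw [lsts, Finset.mem_image]
    constructor
    · rintro ⟨⟨a, b⟩, hab, rfl⟩
      rw [Finset.mem_product, Finset.mem_range] at hab
      obtain ⟨h1, h2⟩ := hab
      rw [ih] at h2
      refine ⟨by simpa using h2.1, ?_⟩
      intro c hc
      rcases List.mem_cons.1 hc with rfl | hc
      · simpa using Nat.lt_succ_iff.1 h1
      · exact h2.2 c hc
    · rintro ⟨h1, h2⟩
      cases q with
      | nil => simp at h1
      | cons a b =>
        refine ⟨(a, b), ?_, rfl⟩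
        rw [Finset.mem_product, Finset.mem_range, ih]
        refine ⟨Nat.lt_succ_iff.2 (h2 a (by simp)), by simpa using h1, ?_⟩
        intro c hc
        exact h2 c (List.mem_cons_of_mem _ hc)

lemma sum_lsts_succ {M : Type*} [AddCommMonoid M] {cm n : ℕ} (f : List ℕ → M) :
    ∑ u ∈ lsts cm (n + 1), f u = ∑ c ∈ Finset.range (cm + 1), ∑ u ∈ lsts cm n, f (c :: u) := by
  rw [lsts, Finset.sum_image, Finset.sum_product]
  rintro ⟨a, b⟩ - ⟨a', b'⟩ - h
  simp only [List.cons.injEq] at h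
  exact Prod.ext h.1 h.2

lemma card_lsts (cm n : ℕ) : (lsts cm n).card = (cm + 1) ^ n := by
  induction n with
  | zero => simp [lsts]
  | succ n ih =>
    rw [Finset.card_eq_sum_ones, sum_lsts_succ]
    simp only [Finset.sum_const, smul_eq_mul, mul_one, Finset.card_range, ih]
    rw [pow_succ]
    ring

/-- class of the last label of the list (`c0` for the empty list) -/
def pc (c0 : ℕ) (u : List ℕ) : ℕ := u.headD c0

@[simp] lemma pc_nil (c0 : ℕ) : pc c0 [] = c0 := rfl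
@[simp] lemma pc_cons (c0 c : ℕ) (u : List ℕ) : pc c0 (c :: u) = c := rfl

/-- the largest class of the list, `c0` included -/
def mx (c0 : ℕ) : List ℕ → ℕ
  | [] => c0
  | c :: u => max c (mx c0 u)

@[simp] lemma mx_nil (c0 : ℕ) : mx c0 [] = c0 := rfl
@[simp] lemma mx_cons (c0 c : ℕ) (u : List ℕ) : mx c0 (c :: u) = max c (mx c0 u) := rfl

lemma pc_le_mx (c0 : ℕ) (u : List ℕ) : pc c0 u ≤ mx c0 u := by
  cases u with
  | nil => simp
  | cons c u => simp

lemma c0_le_mx (c0 : ℕ) (u : List ℕ) : c0 ≤ mx c0 u := by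
  induction u with
  | nil => simp
  | cons c u ih => exact ih.trans (le_max_right _ _)

lemma mx_le {c0 b : ℕ} {u : List ℕ} (h0 : c0 ≤ b) (hu : ∀ c ∈ u, c ≤ b) : mx c0 u ≤ b := by
  induction u with
  | nil => simpa using h0
  | cons c u ih =>
    rw [mx_cons]
    exact max_le (hu c (by simp)) (ih fun c hc => hu c (List.mem_cons_of_mem _ hc))

lemma le_mx {c0 c : ℕ} {u : List ℕ} (h : c ∈ c0 :: u) : c ≤ mx c0 u := by
  induction u with
  | nil =>
    simp only [List.mem_singleton] at h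
    simp [h]
  | cons a u ih =>
    rw [mx_cons]
    rcases List.mem_cons.1 h with rfl | h
    · exact (c0_le_mx _ _).trans (le_max_right _ _)
    · rcases List.mem_cons.1 h with rfl | h
      · exact le_max_left _ _
      · exact (ih (List.mem_cons_of_mem _ h)).trans (le_max_right _ _)

/-- the maximum is attained -/
lemma mx_mem (c0 : ℕ) (u : List ℕ) : mx c0 u ∈ c0 :: u := by
  induction u with
  | nil => simp
  | cons a u ih =>
    rw [mx_cons]
    rcases le_total a (mx c0 u) with h | h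
    · rw [max_eq_right h]
      rcases List.mem_cons.1 ih with h' | h'
      · rw [h']; simp
      · exact List.mem_cons_of_mem _ (List.mem_cons_of_mem _ h')
    · rw [max_eq_left h]; simp

/-- product of the step weights along the list -/
noncomputable def pw (T : ℕ → ℕ → ℝ≥0∞) (c0 : ℕ) : List ℕ → ℝ≥0∞
  | [] => 1
  | c :: u => T (pc c0 u) c * pw T c0 u

@[simp] lemma pw_nil (T : ℕ → ℕ → ℝ≥0∞) (c0 : ℕ) : pw T c0 [] = 1 := rfl
@[simp] lemma pw_cons (T : ℕ → ℕ → ℝ≥0∞) (c0 c : ℕ) (u : List ℕ) :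
    pw T c0 (c :: u) = T (pc c0 u) c * pw T c0 u := rfl

/-- **Schur test** over lists. -/
theorem schur {T : ℕ → ℕ → ℝ≥0∞} {h : ℕ → ℝ≥0∞} {K : ℝ≥0∞} {cm c0 : ℕ} (hc0 : c0 ≤ cm)
    (hT : ∀ c ≤ cm, ∑ b ∈ Finset.range (cm + 1), T c b * h b ≤ K * h c) (k : ℕ) :
    ∑ u ∈ lsts cm k, pw T c0 u * h (pc c0 u) ≤ K ^ k * h c0 := by
  induction k with
  | zero => simp [lsts]
  | succ k ih =>
    rw [sum_lsts_succ, Finset.sum_comm]
    calc ∑ u ∈ lsts cm k, ∑ c ∈ Finset.range (cm + 1), pw T c0 (c :: u) * h (pc c0 (c :: u))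
        = ∑ u ∈ lsts cm k, pw T c0 u * ∑ c ∈ Finset.range (cm + 1), T (pc c0 u) c * h c := by
          refine Finset.sum_congr rfl fun u _ => ?_
          rw [Finset.mul_sum]
          refine Finset.sum_congr rfl fun c _ => ?_
          rw [pw_cons, pc_cons]
          ring
      _ ≤ ∑ u ∈ lsts cm k, pw T c0 u * (K * h (pc c0 u)) := by
          refine Finset.sum_le_sum fun u hu => ?_
          gcongr
          apply hT
          rw [mem_lsts] at hu
          cases u with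
          | nil => simpa using hc0
          | cons a u => exact hu.2 a (by simp)
      _ = K * ∑ u ∈ lsts cm k, pw T c0 u * h (pc c0 u) := by
          rw [Finset.mul_sum]
          refine Finset.sum_congr rfl fun u _ => ?_
          ring
      _ ≤ K * (K ^ k * h c0) := by gcongr
      _ = K ^ (k + 1) * h c0 := by rw [pow_succ]; ring

/-- the Schur test with a weight of the maximal class, `h c = 2 ^ (-c)` -/
theorem count_max {T : ℕ → ℕ → ℝ≥0∞} {K : ℝ≥0∞} {cm c0 : ℕ} (hc0 : c0 ≤ cm)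
    (hT : ∀ c ≤ cm, ∑ b ∈ Finset.range (cm + 1), T c b * ((2 : ℝ≥0∞) ^ b)⁻¹
      ≤ K * ((2 : ℝ≥0∞) ^ c)⁻¹) (w : ℕ → ℝ≥0∞) (k : ℕ) :
    ∑ u ∈ lsts cm k, pw T c0 u * w (mx c0 u)
      ≤ K ^ k * ((2 : ℝ≥0∞) ^ c0)⁻¹ * ∑ M ∈ Finset.range (cm + 1), 2 ^ M * w M := by
  have h2 : ∀ n : ℕ, (2 : ℝ≥0∞) ^ n ≠ 0 := fun n => pow_ne_zero _ (by norm_num)
  have h2' : ∀ n : ℕ, (2 : ℝ≥0∞) ^ n ≠ ⊤ := fun n => ENNReal.pow_ne_top (by norm_num)
  calc ∑ u ∈ lsts cm k, pw T c0 u * w (mx c0 u)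
      ≤ ∑ u ∈ lsts cm k, ∑ M ∈ Finset.range (cm + 1),
          (2 ^ M * w M) * (pw T c0 u * ((2 : ℝ≥0∞) ^ (pc c0 u))⁻¹) := by
        refine Finset.sum_le_sum fun u hu => ?_
        rw [mem_lsts] at hu
        have hM : mx c0 u ∈ Finset.range (cm + 1) :=
          Finset.mem_range.2 (Nat.lt_succ_iff.2 (mx_le hc0 hu.2))
        refine le_trans ?_ (Finset.single_le_sum (f := fun M =>
          (2 ^ M * w M) * (pw T c0 u * ((2 : ℝ≥0∞) ^ (pc c0 u))⁻¹)) (fun _ _ => zero_le) hM)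
        have h1 : (1 : ℝ≥0∞) ≤ 2 ^ (mx c0 u) * ((2 : ℝ≥0∞) ^ (pc c0 u))⁻¹ := by
          calc (1 : ℝ≥0∞) = 2 ^ (pc c0 u) * ((2 : ℝ≥0∞) ^ (pc c0 u))⁻¹ :=
                (ENNReal.mul_inv_cancel (h2 _) (h2' _)).symm
            _ ≤ 2 ^ (mx c0 u) * ((2 : ℝ≥0∞) ^ (pc c0 u))⁻¹ := by
                gcongr
                · norm_num
                · exact pc_le_mx _ _
        calc pw T c0 u * w (mx c0 u) = pw T c0 u * w (mx c0 u) * 1 := (mul_one _).symm
          _ ≤ pw T c0 u * w (mx c0 u) * (2 ^ (mx c0 u) * ((2 : ℝ≥0∞) ^ (pc c0 u))⁻¹) := by gcongr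
          _ = (2 ^ mx c0 u * w (mx c0 u)) * (pw T c0 u * ((2 : ℝ≥0∞) ^ (pc c0 u))⁻¹) := by ring
    _ = (∑ M ∈ Finset.range (cm + 1), 2 ^ M * w M)
          * ∑ u ∈ lsts cm k, pw T c0 u * ((2 : ℝ≥0∞) ^ (pc c0 u))⁻¹ := by
        rw [Finset.sum_comm, Finset.sum_mul]
        refine Finset.sum_congr rfl fun M _ => ?_
        rw [Finset.mul_sum]
    _ ≤ (∑ M ∈ Finset.range (cm + 1), 2 ^ M * w M) * (K ^ k * ((2 : ℝ≥0∞) ^ c0)⁻¹) := by
        gcongr
        exact schur (h := fun c => ((2 : ℝ≥0∞) ^ c)⁻¹) hc0 hT k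
    _ = _ := by ring

/-- the step weight: free if the class drops by at most one -/
noncomputable def stepW (c1 : ℝ) (a b : ℕ) : ℝ≥0∞ :=
  if a ≤ b + 1 then 1 else ENNReal.ofReal (Real.exp (-(c1 * 4 ^ a)))

/-- the weight of a list -/
noncomputable def lw (c1 : ℝ) (c0 : ℕ) (u : List ℕ) : ℝ≥0∞ := pw (stepW c1) c0 u

@[simp] lemma lw_nil (c1 : ℝ) (c0 : ℕ) : lw c1 c0 [] = 1 := rfl
@[simp] lemma lw_cons (c1 : ℝ) (c0 c : ℕ) (u : List ℕ) :
    lw c1 c0 (c :: u) = stepW c1 (pc c0 u) c * lw c1 c0 u := rfl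

lemma stepW_le_one {c1 : ℝ} (h : 0 ≤ c1) (a b : ℕ) : stepW c1 a b ≤ 1 := by
  unfold stepW
  split_ifs
  · exact le_rfl
  · rw [← ENNReal.ofReal_one]
    apply ENNReal.ofReal_le_ofReal
    rw [Real.exp_le_one_iff, neg_nonpos]
    positivity

lemma lw_le_one {c1 : ℝ} (h : 0 ≤ c1) (c0 : ℕ) (u : List ℕ) : lw c1 c0 u ≤ 1 := by
  induction u with
  | nil => simp
  | cons c u ih =>
    rw [lw_cons]
    exact mul_le_one' (stepW_le_one h _ _) ih

lemma two_pow_exp_le {c1 : ℝ} (h : 0 < c1) (c : ℕ) :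
    2 * ((2 : ℝ) ^ c * Real.exp (-(c1 * 4 ^ c))) ≤ 1 / Real.sqrt c1 := by
  have hs : 0 < Real.sqrt c1 := Real.sqrt_pos.2 h
  set z : ℝ := Real.sqrt c1 * 2 ^ c with hz
  have hz0 : 0 < z := by positivity
  have e1 : c1 * 4 ^ c = z ^ 2 := by
    rw [hz, mul_pow, Real.sq_sqrt h.le, ← pow_mul, mul_comm c 2, pow_mul]
    norm_num
  have e2 : (2 : ℝ) ^ c = z / Real.sqrt c1 := by
    rw [hz]; field_simp
  rw [e1, e2]
  have h3 : 2 * z ≤ Real.exp (z ^ 2) := by
    have := Real.add_one_le_exp (z ^ 2)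
    nlinarith [sq_nonneg (z - 1)]
  have h4 : Real.exp (-(z ^ 2)) * Real.exp (z ^ 2) = 1 := by
    rw [← Real.exp_add]; simp
  have h5 : 0 < Real.exp (-(z ^ 2)) := Real.exp_pos _
  have h6 : 2 * z * Real.exp (-(z ^ 2)) ≤ 1 := by
    calc 2 * z * Real.exp (-(z ^ 2)) ≤ Real.exp (z ^ 2) * Real.exp (-(z ^ 2)) := by gcongr
      _ = 1 := by rw [mul_comm]; exact h4
  calc 2 * (z / Real.sqrt c1 * Real.exp (-(z ^ 2)))
      = (2 * z * Real.exp (-(z ^ 2))) / Real.sqrt c1 := by ring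
    _ ≤ 1 / Real.sqrt c1 := by gcongr

lemma geom_half (s : Finset ℕ) (a : ℕ) (hs : ∀ b ∈ s, a ≤ b + 1) :
    ∑ b ∈ s, ((2 : ℝ) ^ b)⁻¹ ≤ 4 * ((2 : ℝ) ^ a)⁻¹ := by
  have hsum : Summable fun b : ℕ => ((2 : ℝ) ^ b)⁻¹ := by
    simpa using summable_geometric_two
  rcases Nat.eq_zero_or_pos a with rfl | ha
  · calc ∑ b ∈ s, ((2 : ℝ) ^ b)⁻¹ ≤ ∑' b : ℕ, ((2 : ℝ) ^ b)⁻¹ :=
          hsum.sum_le_tsum s fun _ _ => by positivity
      _ = 2 := by simpa using tsum_geometric_two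
      _ ≤ 4 * ((2 : ℝ) ^ 0)⁻¹ := by norm_num
  · obtain ⟨a', rfl⟩ : ∃ a', a = a' + 1 := ⟨a - 1, by omega⟩
    have h1 : ∑ b ∈ s, ((2 : ℝ) ^ b)⁻¹ = ∑ b ∈ s.image (fun b => b - a'), ((2 : ℝ) ^ (b + a'))⁻¹ := by
      rw [Finset.sum_image]
      · refine Finset.sum_congr rfl fun b hb => ?_
        have := hs b hb
        rw [Nat.sub_add_cancel (by omega)]
      · intro x hx y hy hxy
        have := hs x hx
        have := hs y hy
        simp only at hxy
        omega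
    rw [h1]
    calc ∑ b ∈ s.image (fun b => b - a'), ((2 : ℝ) ^ (b + a'))⁻¹
        = ((2 : ℝ) ^ a')⁻¹ * ∑ b ∈ s.image (fun b => b - a'), ((2 : ℝ) ^ b)⁻¹ := by
          rw [Finset.mul_sum]
          refine Finset.sum_congr rfl fun b _ => ?_
          rw [pow_add, mul_inv, mul_comm]
      _ ≤ ((2 : ℝ) ^ a')⁻¹ * 2 := by
          gcongr
          calc ∑ b ∈ s.image (fun b => b - a'), ((2 : ℝ) ^ b)⁻¹ ≤ ∑' b : ℕ, ((2 : ℝ) ^ b)⁻¹ :=
                hsum.sum_le_tsum _ fun _ _ => by positivity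
            _ = 2 := by simpa using tsum_geometric_two
      _ = 4 * ((2 : ℝ) ^ (a' + 1))⁻¹ := by
          rw [pow_succ, mul_inv]; ring

/-- the Schur condition of the step weight -/
theorem stepW_schur {c1 : ℝ} (h : 0 < c1) (cm c : ℕ) :
    ∑ b ∈ Finset.range (cm + 1), stepW c1 c b * ((2 : ℝ≥0∞) ^ b)⁻¹
      ≤ ENNReal.ofReal (4 + 1 / Real.sqrt c1) * ((2 : ℝ≥0∞) ^ c)⁻¹ := by
  have e2 : ∀ n : ℕ, ((2 : ℝ≥0∞) ^ n)⁻¹ = ENNReal.ofReal (((2 : ℝ) ^ n)⁻¹) := by
    intro n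
    rw [ENNReal.ofReal_inv_of_pos (by positivity), ENNReal.ofReal_pow (by norm_num)]
    norm_num
  have e3 : ∀ b : ℕ, stepW c1 c b * ((2 : ℝ≥0∞) ^ b)⁻¹ = ENNReal.ofReal
      ((if c ≤ b + 1 then 1 else Real.exp (-(c1 * 4 ^ c))) * ((2 : ℝ) ^ b)⁻¹) := by
    intro b
    rw [e2, stepW, ENNReal.ofReal_mul]
    · split_ifs <;> simp
    · split_ifs
      · norm_num
      · exact (Real.exp_pos _).le
  rw [Finset.sum_congr rfl fun b _ => e3 b, e2, ← ENNReal.ofReal_mul (by positivity),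
    ← ENNReal.ofReal_sum_of_nonneg]
  swap
  · intro b _
    apply mul_nonneg _ (by positivity)
    split_ifs
    · norm_num
    · exact (Real.exp_pos _).le
  apply ENNReal.ofReal_le_ofReal
  have hexp := Real.exp_pos (-(c1 * 4 ^ c))
  calc ∑ b ∈ Finset.range (cm + 1),
        (if c ≤ b + 1 then 1 else Real.exp (-(c1 * 4 ^ c))) * ((2 : ℝ) ^ b)⁻¹
      ≤ ∑ b ∈ Finset.range (cm + 1), ((if c ≤ b + 1 then ((2 : ℝ) ^ b)⁻¹ else 0)
          + Real.exp (-(c1 * 4 ^ c)) * ((2 : ℝ) ^ b)⁻¹) := by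
        refine Finset.sum_le_sum fun b _ => ?_
        split_ifs
        · have : 0 ≤ Real.exp (-(c1 * 4 ^ c)) * ((2 : ℝ) ^ b)⁻¹ := by positivity
          linarith
        · linarith
    _ = ∑ b ∈ (Finset.range (cm + 1)).filter (fun b => c ≤ b + 1), ((2 : ℝ) ^ b)⁻¹
          + Real.exp (-(c1 * 4 ^ c)) * ∑ b ∈ Finset.range (cm + 1), ((2 : ℝ) ^ b)⁻¹ := by
        rw [Finset.sum_add_distrib, Finset.sum_filter, Finset.mul_sum]
    _ ≤ 4 * ((2 : ℝ) ^ c)⁻¹ + Real.exp (-(c1 * 4 ^ c)) * 2 := by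
        gcongr
        · exact geom_half _ _ fun b hb => (Finset.mem_filter.1 hb).2
        · have hsum : Summable fun b : ℕ => ((2 : ℝ) ^ b)⁻¹ := by
            simpa using summable_geometric_two
          calc ∑ b ∈ Finset.range (cm + 1), ((2 : ℝ) ^ b)⁻¹ ≤ ∑' b : ℕ, ((2 : ℝ) ^ b)⁻¹ :=
                hsum.sum_le_tsum _ fun _ _ => by positivity
            _ = 2 := by simpa using tsum_geometric_two
    _ ≤ (4 + 1 / Real.sqrt c1) * ((2 : ℝ) ^ c)⁻¹ := by
        have h1 := two_pow_exp_le h c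
        have h2 : Real.exp (-(c1 * 4 ^ c)) * 2
            = (2 * ((2 : ℝ) ^ c * Real.exp (-(c1 * 4 ^ c)))) * ((2 : ℝ) ^ c)⁻¹ := by
          field_simp
        rw [add_mul, h2]
        gcongr

/-- weight of the maximal class `M`: `(thr (M-1) / D) ^ rho`, truncated at `1` -/
noncomputable def wM (rho : ℝ) (thr : ℕ → ℝ≥0∞) (D : ℝ≥0∞) (M : ℕ) : ℝ≥0∞ :=
  if M = 0 then 1 else min 1 ((thr (M - 1) / D) ^ rho)

lemma geom_le {X : ℝ} (hX : 0 ≤ X) (N : ℕ) :
    ∑ M ∈ Finset.range N, (if (2 : ℝ) ^ M ≤ X then (2 : ℝ) ^ M else 0) ≤ 2 * X := by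
  have key : ∀ N : ℕ, ∑ M ∈ Finset.range N, (if (2 : ℝ) ^ M ≤ X then (2 : ℝ) ^ M else 0) ≤ 2 ^ N
      ∧ ∑ M ∈ Finset.range N, (if (2 : ℝ) ^ M ≤ X then (2 : ℝ) ^ M else 0) ≤ 2 * X := by
    intro N
    induction N with
    | zero => simp [hX]
    | succ N ih =>
      rw [Finset.sum_range_succ]
      split_ifs with h
      · constructor
        · rw [pow_succ]; linarith [ih.1]
        · linarith [ih.1]
      · constructor
        · rw [pow_succ]
          have : (0 : ℝ) < 2 ^ N := by positivity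
          linarith [ih.1]
        · linarith [ih.2]
  exact (key N).2

lemma exp_tail {rho : ℝ} (h : 0 < rho) (M : ℕ) :
    (2 : ℝ) ^ M * Real.exp (-(rho / 8 * 4 ^ M)) ≤ 4 / rho * ((2 : ℝ) ^ M)⁻¹ := by
  set y : ℝ := 2 ^ M with hy
  have hy0 : 0 < y := by positivity
  have e1 : (4 : ℝ) ^ M = y ^ 2 := by
    rw [hy, ← pow_mul, mul_comm M 2, pow_mul]; norm_num
  rw [e1]
  set a : ℝ := rho / 8 * y ^ 2 with ha
  have ha0 : 0 < a := by positivity
  have h2 : 2 * a ≤ Real.exp a := by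
    have h3 := Real.quadratic_le_exp_of_nonneg ha0.le
    nlinarith [sq_nonneg (a - 2)]
  have h4 : Real.exp (-a) * Real.exp a = 1 := by rw [← Real.exp_add]; simp
  have h5 : 0 < Real.exp (-a) := Real.exp_pos _
  have h6 : 2 * a * Real.exp (-a) ≤ 1 := by
    calc 2 * a * Real.exp (-a) ≤ Real.exp a * Real.exp (-a) := by gcongr
      _ = 1 := by rw [mul_comm]; exact h4
  have h7 : y * Real.exp (-a) = (4 / rho * y⁻¹) * (2 * a * Real.exp (-a)) := by
    rw [ha]; field_simp; ring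
  rw [h7]
  have h8 : 0 ≤ 4 / rho * y⁻¹ := by positivity
  calc 4 / rho * y⁻¹ * (2 * a * Real.exp (-a)) ≤ 4 / rho * y⁻¹ * 1 := by gcongr
    _ = 4 / rho * y⁻¹ := mul_one _

/-- `Σ_M 2 ^ M * min 1 ((thr (M-1) / D) ^ rho) ≤ (6 + 8/rho) sqrt (1 - log D)` -/
theorem sum_wM {rho : ℝ} (h : 0 < rho) {thr : ℕ → ℝ≥0∞}
    (hthr : ∀ c, thr c = ENNReal.ofReal (Real.exp (1 - 4 ^ c) / 10)) {D : ℝ≥0∞} (hD : D ≠ 0)
    (hD1 : D ≤ 1) (cm : ℕ) :
    ∑ M ∈ Finset.range (cm + 1), 2 ^ M * wM rho thr D M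
      ≤ ENNReal.ofReal ((6 + 8 / rho) * Real.sqrt (1 - Real.log D.toReal)) := by
  have hDt : D ≠ ⊤ := ne_top_of_le_ne_top ENNReal.one_ne_top hD1
  set x : ℝ := D.toReal with hx
  have hx0 : 0 < x := ENNReal.toReal_pos hD hDt
  have hx1 : x ≤ 1 := by
    have := ENNReal.toReal_mono ENNReal.one_ne_top hD1
    simpa using this
  have hDx : D = ENNReal.ofReal x := (ENNReal.ofReal_toReal hDt).symm
  set L : ℝ := 1 - Real.log x with hL
  have hL1 : 1 ≤ L := by
    have := Real.log_nonpos hx0.le hx1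
    rw [hL]; linarith
  have hterm : ∀ M : ℕ, 2 ^ M * wM rho thr D M ≤ ENNReal.ofReal
      ((if (2 : ℝ) ^ M ≤ Real.sqrt (8 * L) then (2 : ℝ) ^ M else 0) + 4 / rho * ((2 : ℝ) ^ M)⁻¹) := by
    intro M
    have e2 : (2 : ℝ≥0∞) ^ M = ENNReal.ofReal ((2 : ℝ) ^ M) := by
      rw [ENNReal.ofReal_pow (by norm_num)]; norm_num
    have hnn : 0 ≤ 4 / rho * ((2 : ℝ) ^ M)⁻¹ := by positivity
    by_cases hM : (2 : ℝ) ^ M ≤ Real.sqrt (8 * L)
    · rw [if_pos hM, e2]
      calc ENNReal.ofReal ((2 : ℝ) ^ M) * wM rho thr D M ≤ ENNReal.ofReal ((2 : ℝ) ^ M) * 1 := by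
            gcongr
            unfold wM
            split_ifs
            · exact le_rfl
            · exact min_le_left _ _
        _ ≤ _ := by
            rw [mul_one]
            apply ENNReal.ofReal_le_ofReal
            linarith
    · rw [if_neg hM, zero_add]
      rw [not_le] at hM
      have h8 : 8 * L < 4 ^ M := by
        have h1 : Real.sqrt (8 * L) ^ 2 < ((2 : ℝ) ^ M) ^ 2 := by
          have := Real.sqrt_nonneg (8 * L)
          gcongr
        rw [Real.sq_sqrt (by positivity), ← pow_mul, mul_comm M 2, pow_mul] at h1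
        norm_num at h1
        exact h1
      have hM0 : M ≠ 0 := by
        rintro rfl
        norm_num at h8
        linarith
      obtain ⟨M', rfl⟩ : ∃ M', M = M' + 1 := ⟨M - 1, by omega⟩
      rw [wM, if_neg (by omega), e2]
      have h9 : (thr (M' + 1 - 1) / D) ^ rho ≤ ENNReal.ofReal (Real.exp (-(rho / 8 * 4 ^ (M' + 1)))) := by
        rw [Nat.add_sub_cancel, hthr, hDx, ← ENNReal.ofReal_div_of_pos hx0,
          ENNReal.ofReal_rpow_of_pos (by positivity)]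
        apply ENNReal.ofReal_le_ofReal
        have h10 : Real.exp (1 - 4 ^ M') / 10 / x ≤ Real.exp (-(1 / 8 * 4 ^ (M' + 1))) := by
          have h11 : x = Real.exp (1 - L) := by
            rw [hL]
            rw [show (1 : ℝ) - (1 - Real.log x) = Real.log x by ring, Real.exp_log hx0]
          rw [h11, div_div, div_le_iff₀ (by positivity)]
          have h12 : Real.exp (-(1 / 8 * 4 ^ (M' + 1))) * (10 * Real.exp (1 - L))
              = 10 * Real.exp (-(1 / 8 * 4 ^ (M' + 1)) + (1 - L)) := by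
            rw [Real.exp_add]; ring
          rw [h12]
          have h13 : Real.exp (1 - 4 ^ M') ≤ Real.exp (-(1 / 8 * 4 ^ (M' + 1)) + (1 - L)) := by
            apply Real.exp_le_exp.2
            rw [pow_succ] at h8 ⊢
            linarith
          have h14 := Real.exp_pos (-(1 / 8 * 4 ^ (M' + 1)) + (1 - L))
          linarith
        calc (Real.exp (1 - 4 ^ M') / 10 / x) ^ rho ≤ (Real.exp (-(1 / 8 * 4 ^ (M' + 1)))) ^ rho := by
              apply Real.rpow_le_rpow (by positivity) h10 h.le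
          _ = Real.exp (-(rho / 8 * 4 ^ (M' + 1))) := by
              rw [← Real.exp_mul]
              congr 1
              ring
      calc ENNReal.ofReal ((2 : ℝ) ^ (M' + 1)) * min 1 ((thr (M' + 1 - 1) / D) ^ rho)
          ≤ ENNReal.ofReal ((2 : ℝ) ^ (M' + 1)) *
              ENNReal.ofReal (Real.exp (-(rho / 8 * 4 ^ (M' + 1)))) := by
            gcongr
            exact (min_le_right _ _).trans h9
        _ = ENNReal.ofReal ((2 : ℝ) ^ (M' + 1) * Real.exp (-(rho / 8 * 4 ^ (M' + 1)))) := by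
            rw [ENNReal.ofReal_mul (by positivity)]
        _ ≤ _ := ENNReal.ofReal_le_ofReal (exp_tail h _)
  calc ∑ M ∈ Finset.range (cm + 1), 2 ^ M * wM rho thr D M
      ≤ ∑ M ∈ Finset.range (cm + 1), ENNReal.ofReal ((if (2 : ℝ) ^ M ≤ Real.sqrt (8 * L) then
          (2 : ℝ) ^ M else 0) + 4 / rho * ((2 : ℝ) ^ M)⁻¹) :=
        Finset.sum_le_sum fun M _ => hterm M
    _ = ENNReal.ofReal (∑ M ∈ Finset.range (cm + 1),
      ((if (2 : ℝ) ^ M ≤ Real.sqrt (8 * L) then (2 : ℝ) ^ M else 0) + 4 / rho * ((2 : ℝ) ^ M)⁻¹)) := by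
        rw [ENNReal.ofReal_sum_of_nonneg]
        intro M _
        apply add_nonneg
        · split_ifs <;> positivity
        · positivity
    _ ≤ ENNReal.ofReal ((6 + 8 / rho) * Real.sqrt L) := by
        apply ENNReal.ofReal_le_ofReal
        rw [Finset.sum_add_distrib, ← Finset.mul_sum]
        have h1 := geom_le (Real.sqrt_nonneg (8 * L)) (cm + 1)
        have hsum : Summable fun b : ℕ => ((2 : ℝ) ^ b)⁻¹ := by
          simpa using summable_geometric_two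
        have h2 : ∑ b ∈ Finset.range (cm + 1), ((2 : ℝ) ^ b)⁻¹ ≤ 2 := by
          calc ∑ b ∈ Finset.range (cm + 1), ((2 : ℝ) ^ b)⁻¹ ≤ ∑' b : ℕ, ((2 : ℝ) ^ b)⁻¹ :=
                hsum.sum_le_tsum _ fun _ _ => by positivity
            _ = 2 := by simpa using tsum_geometric_two
        have h3 : Real.sqrt (8 * L) ≤ 3 * Real.sqrt L := by
          rw [Real.sqrt_le_left (by positivity), mul_pow, Real.sq_sqrt (by linarith)]
          linarith
        have h4 : 1 ≤ Real.sqrt L := by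
          rw [Real.one_le_sqrt]; exact hL1
        have h5 : 4 / rho * ∑ b ∈ Finset.range (cm + 1), ((2 : ℝ) ^ b)⁻¹ ≤ 8 / rho * Real.sqrt L := by
          calc 4 / rho * ∑ b ∈ Finset.range (cm + 1), ((2 : ℝ) ^ b)⁻¹ ≤ 4 / rho * 2 := by gcongr
            _ = 8 / rho * 1 := by ring
            _ ≤ 8 / rho * Real.sqrt L := by gcongr
        calc _ ≤ 2 * Real.sqrt (8 * L) + 8 / rho * Real.sqrt L := add_le_add h1 h5
          _ ≤ 2 * (3 * Real.sqrt L) + 8 / rho * Real.sqrt L := by gcongr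
          _ = (6 + 8 / rho) * Real.sqrt L := by ring

/-- **The weighted number of class lists.** -/
theorem list_total {c1 rho : ℝ} (hc1 : 0 < c1) (hrho : 0 < rho) {cm c0 : ℕ} (hc0 : c0 ≤ cm)
    {thr : ℕ → ℝ≥0∞} (hthr : ∀ c, thr c = ENNReal.ofReal (Real.exp (1 - 4 ^ c) / 10))
    {D : ℝ≥0∞} (hD : D ≠ 0) (hD1 : D ≤ 1) (k : ℕ) :
    ∑ u ∈ lsts cm k, lw c1 c0 u * wM rho thr D (mx c0 u)
      ≤ ENNReal.ofReal ((4 + 1 / Real.sqrt c1) ^ k *
          ((6 + 8 / rho) * Real.sqrt (1 - Real.log D.toReal) / 2 ^ c0)) := by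
  have e2 : ((2 : ℝ≥0∞) ^ c0)⁻¹ = ENNReal.ofReal (((2 : ℝ) ^ c0)⁻¹) := by
    rw [ENNReal.ofReal_inv_of_pos (by positivity), ENNReal.ofReal_pow (by norm_num)]
    norm_num
  calc ∑ u ∈ lsts cm k, lw c1 c0 u * wM rho thr D (mx c0 u)
      ≤ ENNReal.ofReal (4 + 1 / Real.sqrt c1) ^ k * ((2 : ℝ≥0∞) ^ c0)⁻¹ *
          ∑ M ∈ Finset.range (cm + 1), 2 ^ M * wM rho thr D M :=
        count_max hc0 (fun c _ => stepW_schur hc1 cm c) _ k
    _ ≤ ENNReal.ofReal (4 + 1 / Real.sqrt c1) ^ k * ((2 : ℝ≥0∞) ^ c0)⁻¹ *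
          ENNReal.ofReal ((6 + 8 / rho) * Real.sqrt (1 - Real.log D.toReal)) := by
        gcongr
        exact sum_wM hrho hthr hD hD1 cm
    _ = _ := by
        rw [e2, ← ENNReal.ofReal_pow (by positivity), ← ENNReal.ofReal_mul (by positivity),
          ← ENNReal.ofReal_mul (by positivity)]
        congr 1
        ring

end Vale.Agent.P262.H81
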