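import Vale.Agent.P262.H837.ThrF
import Vale.Agent.P262.H59.Rim

/-!
# P262, M2: the layer functional `Psi s (2 D) ≤ C D^s sqrt (1 - log D)` and the end comparison
-/

open MeasureTheory ProbabilityTheory Set
open scoped ENNReal

namespace Vale.Agent.P262.H81

open Vale.Agent.P262.H837

lemma pg_le_exp (m : ℕ) : pg m ≤ ENNReal.ofReal (2 * Real.exp (-(m : ℝ) ^ 2 / 2)) := by
  unfold pg
  exact Vale.Agent.P262.H59.tail_two (Nat.cast_nonneg m) fun x hx => le_of_lt hx

lemma pg_le_one (m : ℕ) : pg m ≤ 1 := by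
  unfold pg
  exact prob_le_one

/-- **`Psi s (2 D) ≤ (8 + 8 / s) D^s sqrt (1 - log D)`** -/
theorem Psi_two_le {s : ℝ} (hs : 0 < s) (hs1 : s ≤ 1) {D : ℝ≥0∞} (hD : D ≠ 0) (hD1 : D ≤ 1) :
    Psi s (2 * D) ≤ ENNReal.ofReal (8 + 16 / s)
      * (D ^ s * ENNReal.ofReal (Real.sqrt (1 - Real.log D.toReal))) := by
  have hDt : D ≠ ⊤ := ne_top_of_le_ne_top ENNReal.one_ne_top hD1
  set x : ℝ := D.toReal with hx
  have hx0 : 0 < x := ENNReal.toReal_pos hD hDt
  have hx1 : x ≤ 1 := by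
    have := ENNReal.toReal_mono ENNReal.one_ne_top hD1
    simpa using this
  have hDx : D = ENNReal.ofReal x := (ENNReal.ofReal_toReal hDt).symm
  set L : ℝ := 1 - Real.log x with hL
  have hL1 : 1 ≤ L := by
    have := Real.log_nonpos hx0.le hx1
    rw [hL]; linarith
  have hsL : 1 ≤ Real.sqrt L := Real.one_le_sqrt.2 hL1
  have hxs : 0 < x ^ s := Real.rpow_pos_of_pos hx0 s
  set n : ℕ := ⌈2 * Real.sqrt L⌉₊ with hn
  have hn1 : (n : ℝ) ≤ 2 * Real.sqrt L + 1 := (Nat.ceil_lt_add_one (by positivity)).le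
  have hn2 : 2 * Real.sqrt L ≤ n := Nat.le_ceil _
  -- the first n terms
  have hfirst : ∀ m : ℕ, min (2 * D) (pg m) ^ s ≤ ENNReal.ofReal (2 * x ^ s) := by
    intro m
    calc min (2 * D) (pg m) ^ s ≤ (2 * D) ^ s := ENNReal.rpow_le_rpow (min_le_left _ _) hs.le
      _ = ENNReal.ofReal ((2 * x) ^ s) := by
          rw [hDx, show (2 : ℝ≥0∞) = ENNReal.ofReal 2 by norm_num, ← ENNReal.ofReal_mul (by norm_num),
            ENNReal.ofReal_rpow_of_pos (by positivity)]
      _ ≤ ENNReal.ofReal (2 * x ^ s) := by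
          apply ENNReal.ofReal_le_ofReal
          rw [Real.mul_rpow (by norm_num) hx0.le]
          gcongr
          calc (2 : ℝ) ^ s ≤ 2 ^ (1 : ℝ) := Real.rpow_le_rpow_of_exponent_le (by norm_num) hs1
            _ = 2 := by norm_num
  -- the tail
  have htail : ∀ k : ℕ, min (2 * D) (pg (k + n)) ^ s
      ≤ ENNReal.ofReal (2 * x ^ s) * ENNReal.ofReal (Real.exp (-(s / 4))) ^ k := by
    intro k
    have h1 : pg (k + n) ≤ ENNReal.ofReal (2 * x * Real.exp (-(k : ℝ) / 4)) := by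
      refine (pg_le_exp _).trans (ENNReal.ofReal_le_ofReal ?_)
      have h2 : Real.exp (-((k + n : ℕ) : ℝ) ^ 2 / 2) ≤ x * Real.exp (-(k : ℝ) / 4) := by
        have h3 : x = Real.exp (1 - L) := by
          rw [hL, show (1 : ℝ) - (1 - Real.log x) = Real.log x by ring, Real.exp_log hx0]
        rw [h3, ← Real.exp_add]
        apply Real.exp_le_exp.2
        push_cast
        have hk : (0 : ℝ) ≤ k := Nat.cast_nonneg k
        have h4 : 4 * L ≤ (n : ℝ) ^ 2 := by
          have h5 : (2 * Real.sqrt L) ^ 2 ≤ (n : ℝ) ^ 2 := by gcongr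
          rw [mul_pow, Real.sq_sqrt (by linarith)] at h5
          linarith
        have h6 : 2 ≤ (n : ℝ) := by linarith
        nlinarith [mul_nonneg hk (by linarith : (0 : ℝ) ≤ (n : ℝ) - 2), sq_nonneg (k : ℝ)]
      calc 2 * Real.exp (-((k + n : ℕ) : ℝ) ^ 2 / 2) ≤ 2 * (x * Real.exp (-(k : ℝ) / 4)) := by gcongr
        _ = 2 * x * Real.exp (-(k : ℝ) / 4) := by ring
    calc min (2 * D) (pg (k + n)) ^ s ≤ ENNReal.ofReal (2 * x * Real.exp (-(k : ℝ) / 4)) ^ s :=
          ENNReal.rpow_le_rpow ((min_le_right _ _).trans h1) hs.le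
      _ = ENNReal.ofReal ((2 * x * Real.exp (-(k : ℝ) / 4)) ^ s) := by
          rw [ENNReal.ofReal_rpow_of_pos (by positivity)]
      _ ≤ ENNReal.ofReal (2 * x ^ s * Real.exp (-(s / 4)) ^ k) := by
          apply ENNReal.ofReal_le_ofReal
          rw [Real.mul_rpow (by positivity) (Real.exp_pos _).le, Real.mul_rpow (by norm_num) hx0.le]
          have h7 : Real.exp (-(k : ℝ) / 4) ^ s = Real.exp (-(s / 4)) ^ k := by
            rw [← Real.exp_mul, ← Real.exp_nat_mul]
            congr 1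
            ring
          rw [h7]
          gcongr
          calc (2 : ℝ) ^ s ≤ 2 ^ (1 : ℝ) := Real.rpow_le_rpow_of_exponent_le (by norm_num) hs1
            _ = 2 := by norm_num
      _ = _ := by
          rw [ENNReal.ofReal_mul (by positivity), ENNReal.ofReal_pow (Real.exp_pos _).le]
  -- geometric series
  have hr1 : Real.exp (-(s / 4)) < 1 := by
    rw [Real.exp_lt_one_iff]; linarith
  have hgeo : (1 - ENNReal.ofReal (Real.exp (-(s / 4))))⁻¹ ≤ ENNReal.ofReal (8 / s) := by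
    rw [← ENNReal.ofReal_one, ← ENNReal.ofReal_sub _ (Real.exp_pos _).le,
      ← ENNReal.ofReal_inv_of_pos (by linarith)]
    apply ENNReal.ofReal_le_ofReal
    rw [inv_le_comm₀ (by linarith) (by positivity), inv_div]
    -- 1 - exp (-y) ≥ y / 2 for y = s/4 ≤ 1
    have h1 : Real.exp (-(s / 4)) ≤ 1 / (1 + s / 4) := by
      rw [Real.exp_neg, ← one_div]
      apply one_div_le_one_div_of_le (by positivity)
      have := Real.add_one_le_exp (s / 4)
      linarith
    have h2 : 1 / (1 + s / 4) ≤ 1 - s / 8 := by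
      rw [div_le_iff₀ (by positivity)]
      nlinarith
    linarith
  unfold Psi
  rw [← ENNReal.summable.sum_add_tsum_nat_add' (k := n)]
  have hA : ∑ i ∈ Finset.range n, min (2 * D) (pg i) ^ s
      ≤ ENNReal.ofReal (3 * Real.sqrt L) * ENNReal.ofReal (2 * x ^ s) := by
    calc ∑ i ∈ Finset.range n, min (2 * D) (pg i) ^ s
        ≤ ∑ i ∈ Finset.range n, ENNReal.ofReal (2 * x ^ s) := Finset.sum_le_sum fun i _ => hfirst i
      _ = (n : ℝ≥0∞) * ENNReal.ofReal (2 * x ^ s) := by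
          rw [Finset.sum_const, Finset.card_range, nsmul_eq_mul]
      _ ≤ ENNReal.ofReal (3 * Real.sqrt L) * ENNReal.ofReal (2 * x ^ s) := by
          gcongr
          rw [← ENNReal.ofReal_natCast]
          apply ENNReal.ofReal_le_ofReal
          linarith
  have hB : ∑' k : ℕ, min (2 * D) (pg (k + n)) ^ s
      ≤ ENNReal.ofReal (8 / s) * ENNReal.ofReal (2 * x ^ s) := by
    calc ∑' k : ℕ, min (2 * D) (pg (k + n)) ^ s
        ≤ ∑' k : ℕ, ENNReal.ofReal (2 * x ^ s) * ENNReal.ofReal (Real.exp (-(s / 4))) ^ k :=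
          ENNReal.tsum_le_tsum htail
      _ = ENNReal.ofReal (2 * x ^ s) * (1 - ENNReal.ofReal (Real.exp (-(s / 4))))⁻¹ := by
          rw [ENNReal.tsum_mul_left, ENNReal.tsum_geometric]
      _ ≤ ENNReal.ofReal (2 * x ^ s) * ENNReal.ofReal (8 / s) := by gcongr
      _ = _ := mul_comm _ _
  calc _ ≤ ENNReal.ofReal (3 * Real.sqrt L) * ENNReal.ofReal (2 * x ^ s)
        + ENNReal.ofReal (8 / s) * ENNReal.ofReal (2 * x ^ s) := add_le_add hA hB
    _ = ENNReal.ofReal ((3 * Real.sqrt L + 8 / s) * (2 * x ^ s)) := by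
        rw [← add_mul, ← ENNReal.ofReal_add (by positivity) (by positivity),
          ← ENNReal.ofReal_mul (by positivity)]
    _ ≤ ENNReal.ofReal ((8 + 16 / s) * (x ^ s * Real.sqrt L)) := by
        apply ENNReal.ofReal_le_ofReal
        have h1 : 8 / s ≤ 8 / s * Real.sqrt L := by
          have : 0 ≤ 8 / s := by positivity
          nlinarith
        have h2 : 0 ≤ Real.sqrt L * x ^ s := by positivity
        calc (3 * Real.sqrt L + 8 / s) * (2 * x ^ s)
            ≤ (4 * Real.sqrt L + 8 / s * Real.sqrt L) * (2 * x ^ s) := by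
              gcongr
              norm_num
          _ = (8 + 16 / s) * (x ^ s * Real.sqrt L) := by ring
    _ = _ := by
        rw [ENNReal.ofReal_mul (by positivity), ENNReal.ofReal_mul hxs.le, hDx,
          ENNReal.ofReal_rpow_of_pos hx0]

lemma one_add_le_exp {s t : ℝ} (hs : 0 < s) (hs1 : s ≤ 1) (ht : 0 ≤ t) :
    1 + t ≤ 1 / s * Real.exp (s * t) := by
  have h := Real.add_one_le_exp (s * t)
  rw [one_div, ← div_eq_inv_mul, le_div_iff₀ hs]
  nlinarith

/-- real core of the end comparison: `y^s (1 - log y) ≤ (1/s) Y^s (1 - log Y)` -/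
lemma rpow_log_le {s y Y : ℝ} (hs : 0 < s) (hs1 : s ≤ 1) (hy : 0 < y) (hyY : y ≤ Y) (hY : Y ≤ 1) :
    y ^ s * (1 - Real.log y) ≤ 1 / s * (Y ^ s * (1 - Real.log Y)) := by
  have hY0 : 0 < Y := hy.trans_le hyY
  set t : ℝ := Real.log Y - Real.log y with ht
  have ht0 : 0 ≤ t := by
    have := Real.log_le_log hy hyY
    rw [ht]; linarith
  have hlY : 1 ≤ 1 - Real.log Y := by
    have := Real.log_nonpos hY0.le hY
    linarith
  have e1 : y ^ s = Y ^ s * Real.exp (-(s * t)) := by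
    rw [Real.rpow_def_of_pos hy, Real.rpow_def_of_pos hY0, ← Real.exp_add, ht]
    congr 1
    ring
  have h1 : 1 - Real.log y ≤ (1 - Real.log Y) * (1 + t) := by
    have : 1 - Real.log y = (1 - Real.log Y) + t := by rw [ht]; ring
    rw [this]
    nlinarith
  have h2 := one_add_le_exp hs hs1 ht0
  have h3 : Real.exp (-(s * t)) * Real.exp (s * t) = 1 := by rw [← Real.exp_add]; simp
  have hYs : 0 < Y ^ s := Real.rpow_pos_of_pos hY0 s
  have h4 : 0 < Real.exp (-(s * t)) := Real.exp_pos _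
  rw [e1]
  calc Y ^ s * Real.exp (-(s * t)) * (1 - Real.log y)
      ≤ Y ^ s * Real.exp (-(s * t)) * ((1 - Real.log Y) * (1 + t)) := by gcongr
    _ ≤ Y ^ s * Real.exp (-(s * t)) * ((1 - Real.log Y) * (1 / s * Real.exp (s * t))) := by gcongr
    _ = 1 / s * (Y ^ s * (1 - Real.log Y)) * (Real.exp (-(s * t)) * Real.exp (s * t)) := by ring
    _ = _ := by rw [h3, mul_one]

/-- `D^s sqrt (1 - log D)` is increasing up to a factor `1/s` -/
theorem Psi_end {s : ℝ} (hs : 0 < s) (hs1 : s ≤ 1) {D Y : ℝ≥0∞} (hD : D ≠ 0) (hDY : D ≤ Y)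
    (hY : Y ≤ 1) :
    D ^ s * ENNReal.ofReal (Real.sqrt (1 - Real.log D.toReal))
      ≤ ENNReal.ofReal (1 / s) * (Y ^ s * ENNReal.ofReal (Real.sqrt (1 - Real.log Y.toReal))) := by
  have hYt : Y ≠ ⊤ := ne_top_of_le_ne_top ENNReal.one_ne_top hY
  have hDt : D ≠ ⊤ := ne_top_of_le_ne_top hYt hDY
  set x : ℝ := D.toReal with hx
  set y : ℝ := Y.toReal with hy
  have hx0 : 0 < x := ENNReal.toReal_pos hD hDt
  have hxy : x ≤ y := ENNReal.toReal_mono hYt hDY
  have hy0 : 0 < y := hx0.trans_le hxy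
  have hy1 : y ≤ 1 := by
    have := ENNReal.toReal_mono ENNReal.one_ne_top hY
    simpa using this
  have hDx : D = ENNReal.ofReal x := (ENNReal.ofReal_toReal hDt).symm
  have hYx : Y = ENNReal.ofReal y := (ENNReal.ofReal_toReal hYt).symm
  have hly : 1 ≤ 1 - Real.log y := by
    have := Real.log_nonpos hy0.le hy1
    linarith
  have hlx : 1 ≤ 1 - Real.log x := by
    have := Real.log_nonpos hx0.le (hxy.trans hy1)
    linarith
  rw [hDx, hYx, ENNReal.ofReal_rpow_of_pos hx0, ENNReal.ofReal_rpow_of_pos hy0,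
    ← ENNReal.ofReal_mul (by positivity), ← ENNReal.ofReal_mul (by positivity),
    ← ENNReal.ofReal_mul (by positivity)]
  apply ENNReal.ofReal_le_ofReal
  have key := rpow_log_le hs hs1 hx0 hxy hy1
  have hxs : 0 < x ^ s := Real.rpow_pos_of_pos hx0 s
  have hys : 0 < y ^ s := Real.rpow_pos_of_pos hy0 s
  have hxys : x ^ s ≤ y ^ s := Real.rpow_le_rpow hx0.le hxy hs.le
  -- square both sides
  have hinv : 1 ≤ 1 / s := by rw [le_div_iff₀ hs]; linarith
  apply le_of_sq_le_sq _ (by positivity)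
  rw [mul_pow, mul_pow, mul_pow, Real.sq_sqrt (by linarith), Real.sq_sqrt (by linarith)]
  calc (x ^ s) ^ 2 * (1 - Real.log x) = x ^ s * (x ^ s * (1 - Real.log x)) := by ring
    _ ≤ y ^ s * (1 / s * (y ^ s * (1 - Real.log y))) := by gcongr
    _ = 1 / s * ((y ^ s) ^ 2 * (1 - Real.log y)) := by ring
    _ ≤ (1 / s) ^ 2 * ((y ^ s) ^ 2 * (1 - Real.log y)) := by
        have : 1 / s ≤ (1 / s) ^ 2 := by nlinarith
        gcongr

/-- the end comparison of the list form -/
theorem end_le {s : ℝ} (hs : 0 < s) (hs1 : s ≤ 1) {D Y : ℝ≥0∞} (hD : D ≠ 0) (hDY : D ≤ Y)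
    (hY : Y ≤ 1) {c0 : ℕ} (hc : ENNReal.ofReal (Real.exp (1 - 4 ^ c0) / 10) ≤ Y) :
    D ^ s * ENNReal.ofReal ((1 - Real.log D.toReal) / 2 ^ c0)
      ≤ ENNReal.ofReal (4 / s) * (2 ^ c0 * Y ^ s) := by
  have hYt : Y ≠ ⊤ := ne_top_of_le_ne_top ENNReal.one_ne_top hY
  have hDt : D ≠ ⊤ := ne_top_of_le_ne_top hYt hDY
  set x : ℝ := D.toReal with hx
  set y : ℝ := Y.toReal with hy
  have hx0 : 0 < x := ENNReal.toReal_pos hD hDt
  have hxy : x ≤ y := ENNReal.toReal_mono hYt hDY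
  have hy0 : 0 < y := hx0.trans_le hxy
  have hy1 : y ≤ 1 := by
    have := ENNReal.toReal_mono ENNReal.one_ne_top hY
    simpa using this
  have hDx : D = ENNReal.ofReal x := (ENNReal.ofReal_toReal hDt).symm
  have hYx : Y = ENNReal.ofReal y := (ENNReal.ofReal_toReal hYt).symm
  have hty : Real.exp (1 - 4 ^ c0) / 10 ≤ y := by
    rw [hYx] at hc
    exact (ENNReal.ofReal_le_ofReal_iff hy0.le).1 hc
  have hlog : 1 - Real.log y ≤ 4 * 4 ^ c0 := by
    have h1 : Real.log (Real.exp (1 - 4 ^ c0) / 10) ≤ Real.log y :=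
      Real.log_le_log (by positivity) hty
    rw [Real.log_div (Real.exp_pos _).ne' (by norm_num), Real.log_exp] at h1
    have h2 : Real.log 10 ≤ 3 := by
      rw [Real.log_le_iff_le_exp (by norm_num)]
      have h3 : (2.7 : ℝ) ≤ Real.exp 1 := by
        have := Real.exp_one_gt_d9
        linarith
      calc (10 : ℝ) ≤ 2.7 ^ 3 := by norm_num
        _ ≤ Real.exp 1 ^ 3 := by gcongr
        _ = Real.exp 3 := by rw [← Real.exp_nat_mul]; norm_num
    have h4 : (1 : ℝ) ≤ 4 ^ c0 := one_le_pow₀ (by norm_num)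
    linarith
  have hlx : 1 ≤ 1 - Real.log x := by
    have := Real.log_nonpos hx0.le (hxy.trans hy1)
    linarith
  have key := rpow_log_le hs hs1 hx0 hxy hy1
  have hys : 0 < y ^ s := Real.rpow_pos_of_pos hy0 s
  have e2 : (2 : ℝ≥0∞) ^ c0 = ENNReal.ofReal ((2 : ℝ) ^ c0) := by
    rw [ENNReal.ofReal_pow (by norm_num)]; norm_num
  rw [hDx, hYx, ENNReal.ofReal_rpow_of_pos hx0, ENNReal.ofReal_rpow_of_pos hy0, e2,
    ← ENNReal.ofReal_mul (by positivity), ← ENNReal.ofReal_mul (by positivity),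
    ← ENNReal.ofReal_mul (by positivity)]
  apply ENNReal.ofReal_le_ofReal
  have e4 : (4 : ℝ) ^ c0 = 2 ^ c0 * 2 ^ c0 := by
    rw [← mul_pow]; norm_num
  have h2c : (0 : ℝ) < 2 ^ c0 := by positivity
  calc x ^ s * ((1 - Real.log x) / 2 ^ c0) = (x ^ s * (1 - Real.log x)) / 2 ^ c0 := by ring
    _ ≤ (1 / s * (y ^ s * (1 - Real.log y))) / 2 ^ c0 := by gcongr
    _ ≤ (1 / s * (y ^ s * (4 * 4 ^ c0))) / 2 ^ c0 := by gcongr
    _ = 4 / s * (2 ^ c0 * y ^ s) := by
        rw [e4]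
        field_simp

end Vale.Agent.P262.H81
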